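import Crest.Agent.N221.Bd.Defs

-- ▼ part N221/Bd/Sm
section

/-! Row 221, block Bd: joint smoothness of `W`, `b`, `ep`, `act`, `be`. -/

set_option autoImplicit false
set_option linter.unusedSectionVars false
set_option linter.unusedVariables false

open MeasureTheory Set Filter Topology
open scoped ContDiff RealInnerProductSpace ENNReal
open Crest.GeometryTopology.Submanifold
open Crest.Agent.R241.DDefs Crest.Agent.R241.D2
open Crest.Agent.R208.J Crest.Agent.R208.L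

noncomputable section

namespace Crest.Agent.N221.Cov

variable {n N : ℕ} {a : ℝ} {S : Set (Euc N)} {G : Geo n N (-(a ^ 2)) S} (C : Cov G)
variable {x y ξ η ζ ζ' : Euc n} {v : Euc N} {g : Euc n → Euc n} {s σ : ℝ}
variable {Z : Type} [NormedAddCommGroup Z] [NormedSpace ℝ Z]

/-- a continuous solution of a nondegenerate implicit equation is smooth -/
lemma ift {P E F : Type} [NormedAddCommGroup P] [NormedSpace ℝ P] [CompleteSpace P]
    [NormedAddCommGroup E] [NormedSpace ℝ E] [CompleteSpace E]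
    [NormedAddCommGroup F] [NormedSpace ℝ F] [CompleteSpace F] {Φ : P × E → F} {u : P → E} {p : P}
    (hΦ : ContDiffAt ℝ ∞ Φ (p, u p))
    (hi : (fderiv ℝ Φ (p, u p) ∘L ContinuousLinearMap.inr ℝ P E).IsInvertible)
    (hu : ContinuousAt u p) (h0 : ∀ᶠ p' in 𝓝 p, Φ (p', u p') = Φ (p, u p)) :
    ContDiffAt ℝ ∞ u p := by
  refine (hΦ.contDiffAt_implicitFunction (by simp) hi).congr_of_eventuallyEq ?_
  filter_upwards [(continuousAt_id.prodMk hu).tendsto.eventually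
    (hΦ.eventually_apply_eq_iff_implicitFunction (by simp) hi), h0] with p' h1 h2
  exact (h1.1 h2).symm

lemma contDiffAt_dir0 (hξ : ξ ≠ 0) : ContDiffAt ℝ ∞ (C.dir 0) ξ :=
  (C.contDiffAt_dir hξ.symm).comp ξ (f := fun ξ => ((0 : Euc n), ξ)) (by fun_prop)

section Aux

variable {A B E : Type} [NormedAddCommGroup A] [NormedSpace ℝ A] [NormedAddCommGroup B]
  [NormedSpace ℝ B] [NormedAddCommGroup E] [NormedSpace ℝ E] {F : A → B → E} {p : A} {q : B}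

omit C in
lemma sm_part (hF : ContDiffAt ℝ ∞ (fun z : A × B => F z.1 z.2) (p, q)) :
    ContDiffAt ℝ ∞ (fun z : A × B => fderiv ℝ (fun p => F p z.2) z.1) (p, q) :=
  ContDiffAt.fderiv (f := fun (z : A × B) p => F p z.2) (g := Prod.fst) (n := ∞)
    (hF.comp ((p, q), p) (f := fun w : (A × B) × A => (w.2, w.1.2)) (by fun_prop))
    contDiffAt_fst (by simp)

omit C in
lemma sm_total (hF : DifferentiableAt ℝ (fun z : A × B => F z.1 z.2) (p, q)) :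
    HasFDerivAt (fun z : A × B => F z.1 z.2)
      (fderiv ℝ (fun p => F p q) p ∘L ContinuousLinearMap.fst ℝ _ _ +
        fderiv ℝ (F p) q ∘L ContinuousLinearMap.snd ℝ _ _) (p, q) := by
  have h1 := (hF.hasFDerivAt.comp p (f := fun p => (p, q)) (hasFDerivAt_prodMk_left p q)).fderiv
  have h2 := (hF.hasFDerivAt.comp q (hasFDerivAt_prodMk_right p q)).fderiv
  refine hF.hasFDerivAt.congr_fderiv ?_
  rw [show fderiv ℝ (fun p => F p q) p = _ from h1, show fderiv ℝ (F p) q = _ from h2]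
  ext <;> simp [Prod.mk_zero_zero]

end Aux

variable (h : SH G)
include h

lemma qq_mem (hξ : ξ ≠ 0) (y : Euc n) : C.qq ξ y ∈ US G := C.un_W h.hyp.a_pos hξ y

/-- `asy` and `bus` have smooth extensions -/
lemma exists_As : ∃ (As : Euc n × Euc N × Euc n → Euc N) (Bs : Euc n × Euc N × Euc n → ℝ),
    ∀ x v y, C.Un x v → ContDiffAt ℝ ∞ As (x, v, y) ∧ ContDiffAt ℝ ∞ Bs (x, v, y) ∧
      As (x, v, y) = C.asy x v y ∧ Bs (x, v, y) = C.bus x v y := by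
  obtain ⟨V, hV, eV⟩ := h.sm
  have ha := h.hyp.a_pos
  have d1 : ContDiff ℝ ∞ C.Dp := C.pr_smooth.fderiv_right (by simp)
  have d2 := contDiff_dP G
  have d3 := C.pr_smooth
  let F : Euc n × Euc n × Euc N × ℝ → Euc n × Euc n × Euc N × ℝ := fun z =>
    (z.2.1, 0, dP G (C.pr z.1, z.2.2.1) (C.Dp z.1 z.2.1) - V (C.pr z.1, -z.2.2.1) (C.Dp z.1 z.2.1),
      -⟪z.2.2.1, C.Dp z.1 z.2.1⟫)
  have hF : ContDiff ℝ ∞ F := by
    have e1 : ContDiff ℝ ∞ fun z : Euc n × Euc n × Euc N × ℝ => C.Dp z.1 z.2.1 := by fun_prop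
    exact contDiff_snd.fst.prodMk (contDiff_const.prodMk (ContDiff.prodMk (by fun_prop)
      (ContDiff.inner ℝ (by fun_prop) e1).neg))
  have hF1 : ContDiffOn ℝ 1 F univ := (hF.of_le (by simp)).contDiffOn
  let Φ : Euc n × Euc N × Euc n → Euc n × Euc n × Euc N × ℝ := fun z =>
    Lib.ODEFlow.flow F univ ((z.1, z.2.2 - z.1, z.2.1, 0), 1)
  refine ⟨fun z => (Φ z).2.2.1, fun z => (Φ z).2.2.2, fun x v y hv => ?_⟩
  have hξ := C.ep_ne_zero ha hv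
  obtain ⟨k1, k2⟩ := Lib.ODEFlow.flow_of_integralCurve' isOpen_univ hF1 (l := 1)
    (x := (x, y - x, v, 0)) (c := fun t => (x + t • (y - x), y - x,
      C.W (C.ep x v) (x + t • (y - x)), C.b (C.ep x v) (x + t • (y - x)) - C.b (C.ep x v) x))
    (by simp [C.W_ep_self ha hv]) (fun _ _ => trivial) fun t _ => by
      have hl : HasDerivAt (fun s : ℝ => x + s • (y - x)) (y - x) t := by
        simpa using ((hasDerivAt_id t).smul_const (y - x)).const_add x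
      have a1 := ((C.contDiff_W h.hyp h.hH hξ).differentiable (by simp)
        (x + t • (y - x))).hasFDerivAt.comp_hasDerivAt t hl
      rw [C.fderiv_W' h.hyp h.hH h.hD hξ, ← eV (rev_US (C.un_W ha hξ _))] at a1
      exact hl.prodMk ((hasDerivAt_const t _).prodMk (a1.prodMk
        (((C.hasFDerivAt_b ha hξ _).comp_hasDerivAt t hl).sub_const _)))
  have k3 : ContDiffAt ℝ ∞ Φ (x, v, y) :=
    ContDiffAt.comp (x, v, y) (g := Lib.ODEFlow.flow F univ)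
      (f := fun z : Euc n × Euc N × Euc n => ((z.1, z.2.2 - z.1, z.2.1, (0 : ℝ)), (1 : ℝ)))
      ((Lib.ODEFlow.contDiffOn_flow (n := ⊤) le_top isOpen_univ hF.contDiffOn).contDiffAt
        ((Lib.ODEFlow.isOpen_dom isOpen_univ hF1).mem_nhds k1)) (by fun_prop)
  have k4 : C.bus x v x = 0 := by simpa only [C.gd_zero, neg_zero] using C.bus_gd ha hv 0
  refine ⟨k3.snd.snd.fst, k3.snd.snd.snd, ?_, ?_⟩ <;> simp only [Φ, k2, one_smul, add_sub_cancel]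
  · exact C.W_ep ha hv y
  · rw [C.b_ep ha hv, C.b_ep ha hv, k4]; ring

lemma contDiffAt_W (hξ : ξ ≠ 0) (y : Euc n) :
    ContDiffAt ℝ ∞ (fun p : Euc n × Euc n => C.W p.1 p.2) (ξ, y) := by
  obtain ⟨As, Bs, H⟩ := C.exists_As h
  refine ((H 0 _ y (C.un_dir0 hξ)).1.comp (ξ, y)
    (f := fun p : Euc n × Euc n => ((0 : Euc n), C.dir 0 p.1, p.2)) (contDiffAt_const.prodMk
      (((C.contDiffAt_dir0 hξ).comp (ξ, y) contDiffAt_fst).prodMk
        contDiffAt_snd))).congr_of_eventuallyEq ?_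
  filter_upwards [(continuousAt_fst (p := (ξ, y))).eventually_ne hξ] with p hp
  exact (H 0 _ p.2 (C.un_dir0 hp)).2.2.1.symm

lemma contDiffAt_b (hξ : ξ ≠ 0) (y : Euc n) :
    ContDiffAt ℝ ∞ (fun p : Euc n × Euc n => C.b p.1 p.2) (ξ, y) := by
  obtain ⟨As, Bs, H⟩ := C.exists_As h
  refine ((H 0 _ y (C.un_dir0 hξ)).2.1.comp (ξ, y)
    (f := fun p : Euc n × Euc n => ((0 : Euc n), C.dir 0 p.1, p.2)) (contDiffAt_const.prodMk
      (((C.contDiffAt_dir0 hξ).comp (ξ, y) contDiffAt_fst).prodMk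
        contDiffAt_snd))).congr_of_eventuallyEq ?_
  filter_upwards [(continuousAt_fst (p := (ξ, y))).eventually_ne hξ] with p hp
  exact (H 0 _ p.2 (C.un_dir0 hp)).2.2.2.symm

lemma exists_Ep : ∃ Ep : Euc n × Euc N → Euc n, ∀ x v, C.Un x v →
    ContDiffAt ℝ ∞ Ep (x, v) ∧ Ep (x, v) = C.ep x v := by
  obtain ⟨As, Bs, H⟩ := C.exists_As h
  refine ⟨fun z => C.ex 0 (As (z.1, z.2, 0)), fun x v hv => ⟨?_, by rw [ep, ← (H x v 0 hv).2.2.1]⟩⟩
  exact C.ex_smooth.contDiffAt.comp (x, v) (f := fun z : Euc n × Euc N => (0, As (z.1, z.2, 0)))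
    (contDiffAt_const.prodMk ((H x v 0 hv).1.comp (x, v)
      (f := fun z : Euc n × Euc N => (z.1, z.2, (0 : Euc n))) (by fun_prop)))

lemma contDiffAt_ep {X : Z → Euc n} {V : Z → Euc N} {z : Z} (hX : ContDiffAt ℝ ∞ X z)
    (hV : ContDiffAt ℝ ∞ V z) (hu : ∀ᶠ z' in 𝓝 z, C.Un (X z') (V z')) :
    ContDiffAt ℝ ∞ (fun z => C.ep (X z) (V z)) z := by
  obtain ⟨Ep, H⟩ := C.exists_Ep h
  exact ((H _ _ hu.self_of_nhds).1.comp z (hX.prodMk hV)).congr_of_eventuallyEq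
    (hu.mono fun z' hz => (H _ _ hz).2.symm)

lemma differentiableAt_ep {X : Z → Euc n} {V : Z → Euc N} {z : Z} (hX : DifferentiableAt ℝ X z)
    (hV : DifferentiableAt ℝ V z) (hu : ∀ᶠ z' in 𝓝 z, C.Un (X z') (V z')) :
    DifferentiableAt ℝ (fun z => C.ep (X z) (V z)) z := by
  obtain ⟨Ep, H⟩ := C.exists_Ep h
  exact (((H _ _ hu.self_of_nhds).1.differentiableAt (by simp)).comp z
    (hX.prodMk hV)).congr_of_eventuallyEq (hu.mono fun z' hz => (H _ _ hz).2.symm)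

lemma contDiffAt_Psi {X : Z → Euc n} {V : Z → Euc N} {z : Z} (hX : ContDiffAt ℝ ∞ X z)
    (hV : ContDiffAt ℝ ∞ V z) (hu : ∀ᶠ z' in 𝓝 z, C.Un (X z') (V z')) :
    ContDiffAt ℝ ∞ (fun z => C.PsiB (X z) (V z)) z := by
  have h1 := C.contDiffAt_ep h hX hV hu
  exact (h1.prodMk (C.contDiffAt_ep h hX hV.neg (hu.mono fun _ hz => hz.neg C))).prodMk
    ((C.contDiffAt_b h (C.ep_ne_zero h.hyp.a_pos hu.self_of_nhds) _).comp z (h1.prodMk hX)).neg

lemma differentiableAt_Psi {X : Z → Euc n} {V : Z → Euc N} {z : Z} (hX : DifferentiableAt ℝ X z)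
    (hV : DifferentiableAt ℝ V z) (hu : ∀ᶠ z' in 𝓝 z, C.Un (X z') (V z')) :
    DifferentiableAt ℝ (fun z => C.PsiB (X z) (V z)) z := by
  have h1 := C.differentiableAt_ep h hX hV hu
  exact (h1.prodMk (C.differentiableAt_ep h hX hV.neg (hu.mono fun _ hz => hz.neg C))).prodMk
    (((C.contDiffAt_b h (C.ep_ne_zero h.hyp.a_pos hu.self_of_nhds) _).differentiableAt
      (by simp)).comp z (h1.prodMk hX)).neg

lemma contDiffAt_act (hg : C.Deck g) (hξ : ξ ≠ 0) : ContDiffAt ℝ ∞ (C.act g) ξ :=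
  C.contDiffAt_ep h contDiffAt_const (C.contDiffAt_dir0 hξ)
    ((eventually_ne_nhds hξ).mono fun _ hz => (Deck.un C hg).2 (C.un_dir0 hz))

lemma contDiffAt_be (hg : C.Deck g) (hξ : ξ ≠ 0) : ContDiffAt ℝ ∞ (C.be g) ξ :=
  ((C.contDiffAt_b h (C.act_ne_zero h.hyp.a_pos hg hξ) (g 0)).comp ξ
    ((C.contDiffAt_act h hg hξ).prodMk contDiffAt_const)).neg

lemma contDiffAt_KW (hξ : ξ ≠ 0) (y : Euc n) :
    ContDiffAt ℝ ∞ (fun p : Euc n × Euc n => C.KW p.1 p.2) (ξ, y) := sm_part (C.contDiffAt_W h hξ y)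

lemma contDiffAt_KT (hξ : ξ ≠ 0) (y : Euc n) :
    ContDiffAt ℝ ∞ (fun p : Euc n × Euc n => C.KT p.1 p.2) (ξ, y) :=
  (C.contDiffAt_KW h hξ y).add (((innerSL ℝ).contDiff.contDiffAt.comp (ξ, y)
    contDiffAt_fst).smulRight (C.contDiffAt_W h hξ y))


lemma hasFDerivAt_W (hξ : ξ ≠ 0) (y : Euc n) :
    HasFDerivAt (fun p : Euc n × Euc n => C.W p.1 p.2)
      (C.KW ξ y ∘L ContinuousLinearMap.fst ℝ _ _ +
        (dP G (C.qq ξ y) - AA G (C.qq ξ y)) ∘L C.Dp y ∘L ContinuousLinearMap.snd ℝ _ _) (ξ, y) := by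
  refine (sm_total ((C.contDiffAt_W h hξ y).differentiableAt (by simp))).congr_fderiv ?_
  congr 1
  exact ContinuousLinearMap.ext fun p => C.fderiv_W' h.hyp h.hH h.hD hξ y p.2

lemma hasFDerivAt_b2 (hξ : ξ ≠ 0) (y : Euc n) :
    HasFDerivAt (fun p : Euc n × Euc n => C.b p.1 p.2)
      (C.b1 ξ y ∘L ContinuousLinearMap.fst ℝ _ _ -
        innerSL ℝ (C.W ξ y) ∘L C.Dp y ∘L ContinuousLinearMap.snd ℝ _ _) (ξ, y) := by
  refine (sm_total ((C.contDiffAt_b h hξ y).differentiableAt (by simp))).congr_fderiv ?_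
  rw [(C.hasFDerivAt_b h.hyp.a_pos hξ y).fderiv, sub_eq_add_neg]
  rfl

/-- symmetry of the mixed second derivative of `b` -/
lemma hasFDerivAt_b1 (hξ : ξ ≠ 0) (y ζ : Euc n) :
    HasFDerivAt (fun y => C.b1 ξ y ζ) (-(innerSL ℝ (C.KW ξ y ζ) ∘L C.Dp y)) y := by
  have h0 := C.contDiffAt_b h hξ y
  have h1 := ((h0.fderiv_right (m := ∞) (by simp)).differentiableAt (by simp)).hasFDerivAt
  have h2 := (h0.isSymmSndFDerivAt (by
    rw [minSmoothness_of_isRCLikeNormedField]; exact WithTop.coe_le_coe.2 le_top)).eq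
  generalize fderiv ℝ (fderiv ℝ fun p : Euc n × Euc n => C.b p.1 p.2) (ξ, y) = L at h1 h2
  have h3 := (h1.comp y (hasFDerivAt_prodMk_right ξ y)).clm_apply (hasFDerivAt_const (ζ, (0 : Euc n)) y)
  refine (h3.congr_of_eventuallyEq (.of_forall fun y' => ?_)).congr_fderiv ?_
  · simp [(C.hasFDerivAt_b2 h hξ y').fderiv]
  ext1 e
  have h4 := (h1.comp ξ (f := fun ξ => (ξ, y)) (hasFDerivAt_prodMk_left ξ y)).clm_apply
    (hasFDerivAt_const ((0 : Euc n), e) ξ)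
  have h5 : HasFDerivAt (fun ξ => C.W ξ y) (C.KW ξ y) ξ :=
    (((C.contDiffAt_W h hξ y).differentiableAt (by simp)).comp ξ (f := fun ξ => (ξ, y))
      (by fun_prop)).hasFDerivAt
  have h6 := h4.unique (((innerSL ℝ (C.Dp y e)).hasFDerivAt.comp ξ h5).neg.congr_of_eventuallyEq
    ((eventually_ne_nhds hξ).mono fun ξ' h' => by
      simp [(C.hasFDerivAt_b2 h h' y).fderiv, real_inner_comm]))
  have h7 := congrArg (· ζ) h6
  simpa [h2 (0, e), real_inner_comm] using h7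

end Crest.Agent.N221.Cov
end
end

-- ▼ part N221/Bd/K
section

/-! Row 221, block Bd: the derivative `KW` of `W` in the boundary variable. -/

set_option autoImplicit false
set_option linter.unusedSectionVars false
set_option linter.unusedVariables false

open MeasureTheory Set Filter Topology
open scoped ContDiff RealInnerProductSpace ENNReal
open Crest.GeometryTopology.Submanifold
open Crest.Agent.R241.DDefs Crest.Agent.R241.D2
open Crest.Agent.R208.J Crest.Agent.R208.L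

noncomputable section

namespace Crest.Agent.N221.Cov

variable {n N : ℕ} {a : ℝ} {S : Set (Euc N)} {G : Geo n N (-(a ^ 2)) S} (C : Cov G)
variable {x y ξ η ζ ζ' : Euc n} {v : Euc N} {g : Euc n → Euc n} {s σ : ℝ}
variable {Z : Type} [NormedAddCommGroup Z] [NormedSpace ℝ Z]

namespace BK

variable {E F : Type} [NormedAddCommGroup E] [NormedSpace ℝ E]

/-- Euler's identity in degree `0` -/
lemma hom_self [NormedAddCommGroup F] [NormedSpace ℝ F] {f : E → F} {x : E}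
    (hf : DifferentiableAt ℝ f x) (h : ∀ t : ℝ, 0 < t → f (t • x) = f x) : fderiv ℝ f x x = 0 := by
  have h1 : HasDerivAt (fun t : ℝ => t • x) x 1 := by simpa using (hasDerivAt_id (1 : ℝ)).smul_const x
  have h2 := hf.hasFDerivAt.comp_hasDerivAt_of_eq 1 h1 (one_smul ℝ x).symm
  exact h2.unique ((hasDerivAt_const 1 (f x)).congr_of_eventuallyEq
    ((lt_mem_nhds one_pos).mono fun t ht => h t ht))

lemma sph_orth [NormedAddCommGroup F] [InnerProductSpace ℝ F] {f : E → F} {f' : E →L[ℝ] F} {x : E}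
    (hf : HasFDerivAt f f' x) (h : ∀ᶠ y in 𝓝 x, ‖f y‖ = 1) (δ : E) : ⟪f x, f' δ⟫ = 0 := by
  have := hf.norm_sq.unique ((hasFDerivAt_const (1 : ℝ) x).congr_of_eventuallyEq
    (h.mono fun y hy => by simp [hy]))
  simpa using congrArg (fun L => L δ) this

lemma fix_mem [NormedAddCommGroup F] [NormedSpace ℝ F] {f : E → F} {f' : E →L[ℝ] F} {x : E}
    (hf : HasFDerivAt f f' x) (L : F →L[ℝ] F) (h : ∀ᶠ y in 𝓝 x, L (f y) = f y) (δ : E) :
    L (f' δ) = f' δ :=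
  congrArg (fun L => L δ) ((L.hasFDerivAt.comp x hf).unique (hf.congr_of_eventuallyEq h))

lemma piO_apply (ξ ζ : Euc n) : piO ξ ζ = ζ - ⟪ξ, ζ⟫ • ξ := rfl

lemma norm_nz {x : E} (hx : x ≠ 0) : ‖‖x‖⁻¹ • x‖ = 1 := norm_smul_inv_norm hx

lemma hasFDerivAt_nz (hξ : ‖ξ‖ = 1) : HasFDerivAt (fun x : Euc n => ‖x‖⁻¹ • x) (piO ξ) ξ := by
  have h0 := bas_ne0 hξ
  have h1 := ((differentiableAt_id (x := ξ)).norm ℝ h0).hasFDerivAt
  have h2 := ((h1.differentiableAt.inv (by simp [h0])).smul differentiableAt_id).hasFDerivAt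
  have h3 := (h1.smul h2).unique ((hasFDerivAt_id ξ).congr_of_eventuallyEq
    ((eventually_ne_nhds h0).mono fun x hx => by simp [smul_smul, hx]))
  have h4 := sph_orth h2 ((eventually_ne_nhds h0).mono fun x hx => norm_nz hx)
  refine h2.congr_fderiv (ContinuousLinearMap.ext fun δ => ?_)
  have h5 := congrArg (fun L => L δ) h3
  have h6 := h4 δ
  simp only [add_apply, id, hξ, one_smul,
    ContinuousLinearMap.smulRight_apply, Pi.smul_apply', Pi.inv_apply, inv_one,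
    ContinuousLinearMap.id_apply] at h5 h6
  have h7 := congrArg (fun w => ⟪ξ, w⟫) h5
  simp only [inner_add_right, h6, inner_smul_right, real_inner_self_eq_norm_sq, hξ] at h7
  rw [piO_apply, ← h7, eq_sub_iff_add_eq]
  simpa using h5

end BK

open BK

variable (h : SH G)
include h

lemma E_rev (q : TT N) : UDn.E G (rev q) = UDn.E G q := by
  rw [UDn.E, UDn.E, rev_rev, Pv_rev, add_comm (U G (rev q))]

lemma Ei_rev (q : TT N) : H.Ei G (rev q) = H.Ei G q := by rw [H.Ei, E_rev h, H.Ei]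

lemma Ei_mem {q : TT N} (hq : q ∈ US G) {w : Euc N} (hw : w ∈ Vp G q) : H.Ei G q w ∈ Vp G q := by
  rw [← H.Pv_Ei (H.isU h.hyp) h.hyp.a_pos hq (Pv_of_mem hq.1 hw)]
  exact Pv_mem hq.1 hq.2 _

lemma Ei_of_perp {q : TT N} (hq : q ∈ US G) {w : Euc N} (hw : Pv G q w = 0) :
    H.Ei G q w = w ∧ UDn.E G q w = w := by
  have hU : IsU G (U G) := H.isU h.hyp
  have e : UDn.E G q w = w := by
    rw [UDn.E_apply, ← hU.comp_Pv q hq, ← H.Um_Pv hU hq, hw]; simp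
  exact ⟨by simpa only [e] using H.Ei_E hU h.hyp.a_pos hq w, e⟩

lemma U_add_A_Ei {q : TT N} (hq : q ∈ US G) {w : Euc N} (hw : w ∈ Vp G q) :
    U G q (H.Ei G q w) + AA G q (H.Ei G q w) = w := by
  have e := H.E_Ei (H.isU h.hyp) h.hyp.a_pos hq w
  rwa [UDn.E_apply, Pv_of_mem hq.1 (Ei_mem h hq hw), sub_self, add_zero] at e

/-- `A E⁻¹ U = U E⁻¹ A` -/
lemma A_Ei_U {q : TT N} (hq : q ∈ US G) (w : Euc N) :
    AA G q (H.Ei G q (U G q w)) = U G q (H.Ei G q (AA G q w)) := by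
  have hU : IsU G (U G) := H.isU h.hyp
  have e1 := congrArg (AA G q) (H.Ei_D hU h.hyp.a_pos hq w)
  rw [map_add, map_add, H.Um_Pv hU hq] at e1
  exact add_right_cancel (e1.trans (U_add_A_Ei h hq (UDn.rev_mem' hU hq w)).symm)

lemma inner_Ei {q : TT N} (hq : q ∈ US G) (w w' : Euc N) :
    ⟪H.Ei G q w, w'⟫ = ⟪w, H.Ei G q w'⟫ := by
  have hU : IsU G (U G) := H.isU h.hyp
  have e : ∀ x y, ⟪UDn.E G q x, y⟫ = ⟪x, UDn.E G q y⟫ := fun x y => by
    simp only [UDn.E_apply, inner_add_left, inner_add_right, inner_sub_left, inner_sub_right,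
      hU.symm q hq, hU.symm _ (rev_US hq), inner_Pv hq.1]
  have := e (H.Ei G q w) (H.Ei G q w')
  rw [H.E_Ei hU h.hyp.a_pos hq, H.E_Ei hU h.hyp.a_pos hq] at this
  exact this.symm

lemma hasFDerivAt_KW (hξ : ξ ≠ 0) (y : Euc n) : HasFDerivAt (fun ξ => C.W ξ y) (C.KW ξ y) ξ :=
  ((C.hasFDerivAt_W h hξ y).differentiableAt.comp (f := fun ξ => (ξ, y)) ξ
    (differentiableAt_id.prodMk (differentiableAt_const y))).hasFDerivAt

lemma hasFDerivAt_Da (hg : C.Deck g) (hξ : ξ ≠ 0) : HasFDerivAt (C.act g) (C.Da g ξ) ξ :=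
  ((C.contDiffAt_act h hg hξ).differentiableAt (by simp)).hasFDerivAt

lemma KT_apply (ξ y ζ : Euc n) : C.KT ξ y ζ = C.KW ξ y ζ + ⟪ξ, ζ⟫ • C.W ξ y := rfl

lemma KW_self (hξ : ξ ≠ 0) (y : Euc n) : C.KW ξ y ξ = 0 :=
  hom_self (C.hasFDerivAt_KW h hξ y).differentiableAt fun _ ht => C.W_smul ht ξ y

lemma b1_self (hξ : ξ ≠ 0) (y : Euc n) : C.b1 ξ y ξ = 0 :=
  hom_self ((C.hasFDerivAt_b2 h hξ y).differentiableAt.comp (f := fun ξ => (ξ, y)) ξ
    (differentiableAt_id.prodMk (differentiableAt_const y))) fun _ ht => C.b_smul ht ξ y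

lemma KW_piO (hξ : ξ ≠ 0) (y ζ : Euc n) : C.KW ξ y (piO ξ ζ) = C.KW ξ y ζ := by
  rw [piO_apply, map_sub, map_smul, C.KW_self h hξ, smul_zero, sub_zero]

lemma inner_W_KW (hξ : ξ ≠ 0) (y ζ : Euc n) : ⟪C.W ξ y, C.KW ξ y ζ⟫ = 0 :=
  sph_orth (C.hasFDerivAt_KW h hξ y)
    ((eventually_ne_nhds hξ).mono fun _ hx => (C.un_W h.hyp.a_pos hx y).norm) ζ

lemma KW_mem (hξ : ξ ≠ 0) (y ζ : Euc n) : C.KW ξ y ζ ∈ Vp G (C.qq ξ y) :=
  mem_Vp.2 ⟨(P_eq_self G (C.pr_mem y)).2 (fix_mem (C.hasFDerivAt_KW h hξ y) (G.P (C.pr y))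
    ((eventually_ne_nhds hξ).mono fun _ hx =>
      (P_eq_self G (C.pr_mem y)).1 (C.un_W h.hyp.a_pos hx y).mem) ζ),
    (real_inner_comm _ _).trans (C.inner_W_KW h hξ y ζ)⟩

lemma KT_mem (hξ : ξ ≠ 0) (y ζ : Euc n) : C.KT ξ y ζ ∈ G.T (C.pr y) :=
  add_mem (mem_Vp.1 (C.KW_mem h hξ y ζ)).1 (Submodule.smul_mem _ _ (C.un_W h.hyp.a_pos hξ y).mem)

lemma KT_self (hξ : ‖ξ‖ = 1) (y : Euc n) : C.KT ξ y ξ = C.W ξ y := by
  rw [C.KT_apply h, C.KW_self h (bas_ne0 hξ), real_inner_self_eq_norm_sq, hξ]; simp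

lemma inner_W_KT (hξ : ξ ≠ 0) (y ζ : Euc n) : ⟪C.W ξ y, C.KT ξ y ζ⟫ = ⟪ξ, ζ⟫ := by
  rw [C.KT_apply h, inner_add_right, C.inner_W_KW h hξ, inner_smul_right, real_inner_self_eq_norm_sq,
    (C.un_W h.hyp.a_pos hξ y).norm]
  simp

lemma norm_KT_zero (hξ : ‖ξ‖ = 1) (ζ : Euc n) : ‖C.KT ξ 0 ζ‖ = ‖ζ‖ := by
  obtain ⟨A, hA⟩ := C.lg_zero
  have e : ∀ x : Euc n, x ≠ 0 → C.W x 0 = A (‖x‖⁻¹ • x) := fun x hx => by
    rw [C.W_zero h.hyp.a_pos hx, dir, hA, A.norm_map, map_smul]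
  have h1 := (C.hasFDerivAt_KW h (bas_ne0 hξ) 0).unique
    ((A.toContinuousLinearMap.hasFDerivAt.comp ξ (hasFDerivAt_nz hξ)).congr_of_eventuallyEq
      ((eventually_ne_nhds (bas_ne0 hξ)).mono e))
  rw [C.KT_apply h, h1, e ξ (bas_ne0 hξ), hξ, inv_one, one_smul, ← A.norm_map ζ]
  simp [piO_apply]

lemma KW_eq_zero (hξ : ‖ξ‖ = 1) (hζ : ⟪ξ, ζ⟫ = 0) (e : C.KW ξ y ζ = 0) : ζ = 0 := by
  obtain ⟨Ep, hE⟩ := C.exists_Ep h
  have h0 := bas_ne0 hξ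
  have h1 := ((hE y _ (C.un_W h.hyp.a_pos h0 y)).1.differentiableAt (by simp)).hasFDerivAt.comp ξ
    ((hasFDerivAt_const y ξ).prodMk (C.hasFDerivAt_KW h h0 y))
  have h2 := h1.unique ((hasFDerivAt_nz hξ).congr_of_eventuallyEq
    ((eventually_ne_nhds h0).mono fun x hx => by
      rw [Function.comp_apply, (hE y _ (C.un_W h.hyp.a_pos hx y)).2,
        ← C.W_smul (inv_pos.2 (norm_pos_iff.2 hx)), C.ep_W h.hyp.a_pos (norm_nz hx)]))
  have h3 := congrArg (fun L => L ζ) h2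
  simpa [piO_apply, hζ, e, Prod.mk_zero_zero] using h3.symm

lemma KT_inj (hξ : ‖ξ‖ = 1) (y : Euc n) : Function.Injective (C.KT ξ y) := by
  refine (injective_iff_map_eq_zero _).2 fun ζ e => ?_
  have h1 := C.inner_W_KT h (bas_ne0 hξ) y ζ
  rw [e, inner_zero_right] at h1
  rw [C.KT_apply h, ← h1, zero_smul, add_zero] at e
  exact C.KW_eq_zero h hξ h1.symm e

/-- differential of the end point map -/
lemma fderiv_ep {X : Z → Euc n} {V : Z → Euc N} {z : Z} (hX : DifferentiableAt ℝ X z)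
    (hV : DifferentiableAt ℝ V z) (hu : ∀ᶠ z' in 𝓝 z, C.Un (X z') (V z')) (δ : Z) :
    ⟪C.ep (X z) (V z), fderiv ℝ (fun z => C.ep (X z) (V z)) z δ⟫ = 0 ∧
    C.KW (C.ep (X z) (V z)) (X z) (fderiv ℝ (fun z => C.ep (X z) (V z)) z δ) =
      G.P (C.pr (X z)) (fderiv ℝ V z δ) +
        AA G (C.pr (X z), V z) (C.Dp (X z) (fderiv ℝ X z δ)) := by
  have ha := h.hyp.a_pos
  have he := (C.differentiableAt_ep h hX hV hu).hasFDerivAt
  have h0 := hu.self_of_nhds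
  have h1 := C.ep_ne_zero ha h0
  refine ⟨sph_orth he (hu.mono fun _ hz => C.norm_ep ha hz) δ, ?_⟩
  have h2 := (C.hasFDerivAt_W h h1 (X z)).comp (f := fun z => (C.ep (X z) (V z), X z)) z
    (he.prodMk hX.hasFDerivAt)
  replace h2 := hV.hasFDerivAt.unique (h2.congr_of_eventuallyEq
    (hu.mono fun _ hz => (C.W_ep_self ha hz).symm))
  have h3 := mem_Vp.1 (C.KW_mem h h1 (X z) (fderiv ℝ (fun z => C.ep (X z) (V z)) z δ))
  have hq : C.qq (C.ep (X z) (V z)) (X z) = (C.pr (X z), V z) := by rw [qq, C.W_ep_self ha h0]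
  have h4 := dP_tangent_normal h0.ts (C.fderiv_pr_mem (X z) (fderiv ℝ X z δ))
  have h5 := mem_Vp.1 (UDn.rev_mem' (H.isU h.hyp) h0 (C.Dp (X z) (fderiv ℝ X z δ)))
  rw [h2, hq]
  simp only [add_apply, ContinuousLinearMap.comp_apply,
    ContinuousLinearMap.prod_apply, ContinuousLinearMap.coe_fst', ContinuousLinearMap.coe_snd',
    sub_apply, map_add, map_sub]
  rw [(P_eq_self G (C.pr_mem _)).1 h3.1, (P_eq_self G (C.pr_mem _)).1 h5.1, Dp, h4]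
  abel

lemma KW_surj (hξ : ‖ξ‖ = 1) (y : Euc n) {w : Euc N} (hw : w ∈ Vp G (C.qq ξ y)) :
    ∃ ζ, ⟪ξ, ζ⟫ = 0 ∧ C.KW ξ y ζ = w := by
  have ha := h.hyp.a_pos
  have hv := C.un_W ha (bas_ne0 hξ) y
  obtain ⟨w1, w2⟩ := mem_Vp.1 hw
  have h1 : HasDerivAt (fun t : ℝ => C.W ξ y + t • w) w 0 := by
    simpa using ((hasDerivAt_id (0 : ℝ)).smul_const w).const_add (C.W ξ y)
  have h2 := (hasFDerivAt_nz hv.norm).comp_hasDerivAt_of_eq 0 h1 (by simp)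
  have h3 : ∀ᶠ t : ℝ in 𝓝 0, C.W ξ y + t • w ≠ 0 :=
    h1.continuousAt.eventually_ne (by simpa using bas_ne0 hv.norm)
  have h4 := C.fderiv_ep h (differentiableAt_const y) h2.differentiableAt (h3.mono fun t ht =>
    ⟨⟨C.pr_mem y, Submodule.smul_mem _ _ (add_mem hv.mem (Submodule.smul_mem _ _ w1))⟩,
      norm_nz ht⟩) 1
  rw [h2.hasFDerivAt.fderiv] at h4
  have e : ⟪C.W ξ y, w⟫ = 0 := (real_inner_comm _ _).trans w2
  simp only [Function.comp_apply, zero_smul, add_zero, hv.norm, inv_one, one_smul, C.ep_W ha hξ,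
    fderiv_fun_const, Pi.zero_apply, zero_apply, map_zero, piO_apply, e, sub_zero,
    ContinuousLinearMap.toSpanSingleton_apply, (P_eq_self G (C.pr_mem y)).1 w1] at h4
  exact ⟨_, h4⟩

lemma KT_surj (hξ : ‖ξ‖ = 1) (y : Euc n) {w : Euc N} (hw : w ∈ G.T (C.pr y)) :
    ∃ ζ, C.KT ξ y ζ = w := by
  have hq := C.qq_mem h (bas_ne0 hξ) y
  obtain ⟨ζ, h1, h2⟩ := C.KW_surj h hξ y (Pv_mem hq.1 hq.2 w)
  refine ⟨ζ + ⟪C.W ξ y, w⟫ • ξ, ?_⟩
  rw [map_add, map_smul, C.KT_self h hξ, C.KT_apply h, h1, h2, zero_smul, add_zero, Pv_apply]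
  exact (sub_add_cancel _ _).trans ((P_eq_self G (C.pr_mem y)).1 hw)


lemma inner_Da (hg : C.Deck g) (hξ : ξ ≠ 0) (ζ : Euc n) : ⟪C.act g ξ, C.Da g ξ ζ⟫ = 0 :=
  sph_orth (C.hasFDerivAt_Da h hg hξ)
    ((eventually_ne_nhds hξ).mono fun _ hx => C.norm_act h.hyp.a_pos hg hx) ζ

lemma KW_act (hg : C.Deck g) (hξ : ξ ≠ 0) (y ζ : Euc n) :
    C.KW (C.act g ξ) (g y) (C.Da g ξ ζ) = C.KW ξ y ζ :=
  congrArg (fun L => L ζ) (((C.hasFDerivAt_KW h (C.act_ne_zero h.hyp.a_pos hg hξ) (g y)).comp ξ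
    (C.hasFDerivAt_Da h hg hξ)).unique ((C.hasFDerivAt_KW h hξ y).congr_of_eventuallyEq
      ((eventually_ne_nhds hξ).mono fun _ hx => C.W_act h.hyp.a_pos hg hx y)))

lemma KT_act (hg : C.Deck g) (hξ : ξ ≠ 0) (y : Euc n) :
    C.KT (C.act g ξ) (g y) ∘L C.DT g ξ = C.KT ξ y := by
  ext1 ζ
  change C.KT (C.act g ξ) (g y) (C.Da g ξ ζ + ⟪ξ, ζ⟫ • C.act g ξ) = _
  rw [map_add, map_smul, C.KT_self h (C.norm_act h.hyp.a_pos hg hξ), C.KT_apply h, C.KW_act h hg hξ,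
    C.inner_Da h hg hξ, zero_smul, add_zero, C.W_act h.hyp.a_pos hg hξ, C.KT_apply h]


lemma qq_gd (hξ : ξ ≠ 0) (y : Euc n) (t : ℝ) :
    C.qq ξ (C.gd y (C.W ξ y) t) = fl G (C.qq ξ y, t) := by
  rw [qq, qq, C.up_gd (C.un_W h.hyp.a_pos hξ y).mem, C.W_gd h.hyp.a_pos hξ]

lemma qq_act (hg : C.Deck g) (hξ : ξ ≠ 0) (y : Euc n) : C.qq (C.act g ξ) (g y) = C.qq ξ y := by
  rw [qq, qq, hg.pr_eq, C.W_act h.hyp.a_pos hg hξ]

/-- `KW` along the geodesic to `ξ` -/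
lemma KW_flow (hξ : ξ ≠ 0) (y ζ : Euc n) (t : ℝ) :
    C.KW ξ (C.gd y (C.W ξ y) t) ζ = UDn.E G (fl G (C.qq ξ y, t))
      (PT G (C.qq ξ y) t (Ju G (C.qq ξ y) t (H.Ei G (C.qq ξ y) (C.KW ξ y ζ)))) := by
  have hU : IsU G (U G) := H.isU h.hyp
  have hq := C.qq_mem h hξ y
  have hK := C.hasFDerivAt_KW h hξ y
  have hc : HasFDerivAt (fun ξ => C.gd y (C.W ξ y) t) _ ξ :=
    ((C.contDiff_gd.differentiable (by simp) _).comp ξ ((differentiableAt_const y).prodMk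
      (hK.differentiableAt.prodMk (differentiableAt_const t)))).hasFDerivAt
  have h1 : HasFDerivAt (fun ξ => C.qq ξ (C.gd y (C.W ξ y) t)) _ ξ :=
    ((C.diff_pr _).hasFDerivAt.comp ξ hc).prodMk
      ((C.hasFDerivAt_W h hξ _).comp (f := fun ξ => (ξ, C.gd y (C.W ξ y) t)) ξ
        ((hasFDerivAt_id ξ).prodMk hc))
  have h2 : HasFDerivAt (fun ξ => fl G (C.qq ξ y, t)) _ ξ :=
    HasFDerivAt.comp (g := fun q => fl G (q, t)) (f := fun ξ => C.qq ξ y) ξ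
      (hasFDerivAt_fl_left hq.1 t) ((hasFDerivAt_const (C.pr y) ξ).prodMk hK)
  have h3 := congrArg (fun L => L ζ) (h1.unique (h2.congr_of_eventuallyEq
    ((eventually_ne_nhds hξ).mono fun _ hx => C.qq_gd h hx y t)))
  have e : ∀ u, dfl G (C.qq ξ y) t u = Dfl G (C.qq ξ y) t u := dfl_apply hq.1 t
  have h4 := H.vu_sub_vs (G := G) (z := C.qq ξ y) (H.Ei G (C.qq ξ y) (C.KW ξ y ζ))
  rw [U_add_A_Ei h hq (C.KW_mem h hξ y ζ)] at h4
  simp only [add_apply, ContinuousLinearMap.comp_apply,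
    ContinuousLinearMap.prod_apply, ContinuousLinearMap.coe_fst', ContinuousLinearMap.coe_snd',
    sub_apply, zero_apply, ContinuousLinearMap.id_apply,
    C.qq_gd h hξ] at h3
  rw [← h4, map_sub, e, e, H.Dfl_vu h.hyp hq, H.Dfl_vs h.hyp hq, H.vu_apply, H.vs_apply,
    Prod.mk_sub_mk, Prod.mk.injEq, Dp] at h3
  obtain ⟨h5, h6⟩ := h3
  rw [h5, map_sub, map_sub, H.Um_Pv hU (fl_US hq t), H.Um_Pv hU (fl_US hq t)] at h6
  rw [UDn.E_apply, Pv_PT hq.1, Pv_of_mem hq.1 (Ju_mem h.hyp.cpt hU hq t _), sub_self, add_zero]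
  linear_combination (norm := abel_nf) h6

end Crest.Agent.N221.Cov
end
end

-- ▼ part N221/Bd/Ft

/-! Row 221, block Bd: smoothness and derivatives of `ft`, `cc`; the form `MM`. -/

set_option autoImplicit false
set_option linter.unusedSectionVars false
set_option linter.unusedVariables false

open MeasureTheory Set Filter Topology
open scoped ContDiff RealInnerProductSpace ENNReal
open Crest.GeometryTopology.Submanifold
open Crest.Agent.R241.DDefs Crest.Agent.R241.D2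
open Crest.Agent.R208.J Crest.Agent.R208.L

noncomputable section

namespace Crest.Agent.N221.Cov

variable {n N : ℕ} {a : ℝ} {S : Set (Euc N)} {G : Geo n N (-(a ^ 2)) S} (C : Cov G)
variable {x y ξ η ζ ζ' : Euc n} {v : Euc N} {g : Euc n → Euc n} {s σ : ℝ}
variable {Z : Type} [NormedAddCommGroup Z] [NormedSpace ℝ Z]

namespace Ft

variable {A B F : Type} [NormedAddCommGroup A] [NormedSpace ℝ A] [NormedAddCommGroup B]
  [NormedSpace ℝ B] [NormedAddCommGroup F] [NormedSpace ℝ F] {f : A → B → F} {u : A} {w : B}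

lemma d1 (hf : ContDiffAt ℝ ∞ (fun p : A × B => f p.1 p.2) (u, w)) :
    HasFDerivAt (fun u => f u w) (fderiv ℝ (fun u => f u w) u) u :=
  ((hf.comp u (f := fun u => (u, w)) (by fun_prop)).differentiableAt (by simp)).hasFDerivAt

lemma split (hf : ContDiffAt ℝ ∞ (fun p : A × B => f p.1 p.2) (u, w)) :
    HasFDerivAt (fun p : A × B => f p.1 p.2)
      (fderiv ℝ (fun u => f u w) u ∘L ContinuousLinearMap.fst ℝ _ _ +
        fderiv ℝ (fun w => f u w) w ∘L ContinuousLinearMap.snd ℝ _ _) (u, w) := by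
  have h0 := (hf.differentiableAt (by simp)).hasFDerivAt
  have h1 : HasFDerivAt (fun u => f u w) _ u :=
    h0.comp u (f := fun u => (u, w)) (hasFDerivAt_prodMk_left u w)
  have h2 : HasFDerivAt (fun w => f u w) _ w :=
    h0.comp w (f := fun w => (u, w)) (hasFDerivAt_prodMk_right u w)
  rw [h1.fderiv, h2.fderiv]
  refine h0.congr_fderiv (ContinuousLinearMap.ext fun p => ?_)
  simp only [add_apply, ContinuousLinearMap.comp_apply]
  rw [← map_add]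
  simp

lemma cd1 (hf : ContDiffAt ℝ ∞ (fun p : A × B => f p.1 p.2) (u, w)) :
    ContDiffAt ℝ ∞ (fun p : A × B => fderiv ℝ (fun u => f u p.2) p.1) (u, w) :=
  ContDiffAt.fderiv (f := fun (p : A × B) u => f u p.2) (g := Prod.fst) (n := ∞)
    (hf.comp ((u, w), u) (f := fun q : (A × B) × A => (q.2, q.1.2)) (by fun_prop))
    contDiffAt_fst le_rfl

lemma cd2 (hf : ContDiffAt ℝ ∞ (fun p : A × B => f p.1 p.2) (u, w)) :
    ContDiffAt ℝ ∞ (fun p : A × B => fderiv ℝ (fun w => f p.1 w) p.2) (u, w) :=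
  ContDiffAt.fderiv (f := fun (p : A × B) w => f p.1 w) (g := Prod.snd) (n := ∞)
    (hf.comp ((u, w), w) (f := fun q : (A × B) × B => (q.1.1, q.2)) (by fun_prop))
    contDiffAt_snd le_rfl

lemma n1 (hp : (ξ, η) ∈ GO n) : ξ ≠ 0 := hp.1

lemma n2 (hp : (ξ, η) ∈ GO n) : η ≠ 0 := hp.2.1

lemma ev1 (hp : (ξ, η) ∈ GO n) : ∀ᶠ ξ' in 𝓝 ξ, (ξ', η) ∈ GO n :=
  (Continuous.prodMk_left η).continuousAt.preimage_mem_nhds (isOpen_GO.mem_nhds hp)

lemma ev2 (hp : (ξ, η) ∈ GO n) : ∀ᶠ η' in 𝓝 η, (ξ, η') ∈ GO n :=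
  (Continuous.prodMk_right ξ).continuousAt.preimage_mem_nhds (isOpen_GO.mem_nhds hp)

lemma ev3 (hp : (ξ, η) ∈ GO n) (s : ℝ) : ∀ᶠ p in 𝓝 ((ξ, η), s), p.1 ∈ GO n :=
  continuous_fst.continuousAt.preimage_mem_nhds (isOpen_GO.mem_nhds hp)

/-- the inner product as a bilinear map -/
def iB (N : ℕ) : Euc N →L[ℝ] Euc N →L[ℝ] ℝ := innerSL ℝ

lemma iB_apply (u w : Euc N) : iB N u w = ⟪u, w⟫ := rfl

lemma isInv {T : Euc n →L[ℝ] Euc n →L[ℝ] ℝ} (hT : ∀ e, T e e = 0 → e = 0) : T.IsInvertible := by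
  have hi : Function.Injective T.toLinearMap :=
    (injective_iff_map_eq_zero _).2 fun e he => hT e (by rw [show T e = 0 from he]; rfl)
  have hd : Module.finrank ℝ (Euc n) = Module.finrank ℝ (Euc n →L[ℝ] ℝ) := by
    rw [← (LinearMap.toContinuousLinearMap (𝕜 := ℝ) (E := Euc n) (F' := ℝ)).finrank_eq]
    exact Subspace.dual_finrank_eq.symm
  exact ⟨(LinearMap.linearEquivOfInjective _ hi hd).toContinuousLinearEquiv, by ext; rfl⟩

lemma AA_rev (q : TT N) : AA G (rev q) = U G q := congrArg (U G) (rev_rev q)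

lemma tan_eq {q : TT N} (hq : q ∈ US G) {k : Euc N} (hk : k ∈ G.T q.1) :
    k = Pv G q k + ⟪q.2, k⟫ • q.2 := by
  rw [Pv_apply, (P_eq_self G hq.1.1).1 hk, sub_add_cancel]

variable (h : SH G)
include h

lemma pos {q : TT N} (hq : q ∈ US G) {k : Euc N} (hk : k ∈ G.T q.1)
    (e : ⟪U G q k, k⟫ + ⟪AA G q k, k⟫ + ⟪q.2, k⟫ ^ 2 = 0) : k = 0 := by
  have hU : IsU G (U G) := H.isU h.hyp
  have ha := h.hyp.a_pos
  have h1 := hU.lower q hq _ (Pv_mem hq.1 hq.2 k)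
  rw [hU.comp_Pv q hq, hU.symm q hq, hU.comp_Pv q hq, ← hU.symm q hq] at h1
  have h2 := UDn.inner_nonneg hU ha (rev_US hq) k
  have h3 : 0 ≤ a * ‖Pv G q k‖ ^ 2 := by positivity
  have h4 := sq_nonneg ⟪q.2, k⟫
  have h5 : a * ‖Pv G q k‖ ^ 2 = 0 := by linarith
  have h6 : ⟪q.2, k⟫ ^ 2 = 0 := by linarith
  rw [tan_eq hq hk, pow_eq_zero_iff two_ne_zero |>.1 h6, zero_smul, add_zero]
  simpa [ha.ne'] using h5

variable {X Y : Z → Euc n} {X' Y' : Z →L[ℝ] Euc n} {z : Z}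

lemma cW (hX : ContDiffAt ℝ ∞ X z) (hY : ContDiffAt ℝ ∞ Y z) (h0 : X z ≠ 0) :
    ContDiffAt ℝ ∞ (fun z => C.W (X z) (Y z)) z :=
  (C.contDiffAt_W h h0 (Y z)).comp z (f := fun z => (X z, Y z)) (hX.prodMk hY)

lemma cb (hX : ContDiffAt ℝ ∞ X z) (hY : ContDiffAt ℝ ∞ Y z) (h0 : X z ≠ 0) :
    ContDiffAt ℝ ∞ (fun z => C.b (X z) (Y z)) z :=
  (C.contDiffAt_b h h0 (Y z)).comp z (f := fun z => (X z, Y z)) (hX.prodMk hY)

lemma fW (h0 : ξ ≠ 0) (hX : HasFDerivAt X X' z) (hY : HasFDerivAt Y Y' z) (e1 : X z = ξ)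
    (e2 : Y z = x) : HasFDerivAt (fun z => C.W (X z) (Y z))
      (C.KW ξ x ∘L X' + (dP G (C.qq ξ x) - AA G (C.qq ξ x)) ∘L C.Dp x ∘L Y') z := by
  subst e1 e2
  exact (C.hasFDerivAt_W h h0 (Y z)).comp z (hX.prodMk hY)

lemma fb (h0 : ξ ≠ 0) (hX : HasFDerivAt X X' z) (hY : HasFDerivAt Y Y' z) (e1 : X z = ξ)
    (e2 : Y z = x) : HasFDerivAt (fun z => C.b (X z) (Y z))
      (C.b1 ξ x ∘L X' - innerSL ℝ (C.W ξ x) ∘L C.Dp x ∘L Y') z := by
  subst e1 e2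
  exact (C.hasFDerivAt_b2 h h0 (Y z)).comp z (hX.prodMk hY)

end Ft

open Ft

variable (h : SH G)
include h

lemma qq_rev (hx : C.W η x = -C.W ξ x) : C.qq η x = rev (C.qq ξ x) := Prod.ext rfl hx

lemma contDiffAt_FT (hp : (ξ, η) ∈ GO n) (s : ℝ) : ContDiffAt ℝ ∞ C.FT ((ξ, η), s) := by
  have ha := h.hyp.a_pos
  obtain ⟨hx, hs⟩ := C.ft_spec ha hp s
  set x := C.ft ξ η s with ex
  let Θ : ((Euc n × Euc n) × ℝ) × Euc n → Euc N := fun z =>
    C.W z.1.1.1 z.2 + C.W z.1.1.2 z.2 + (C.b z.1.1.1 z.2 + z.1.2) • C.W z.1.1.1 z.2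
  have h0 : ∀ p : (Euc n × Euc n) × ℝ, p.1 ∈ GO n → Θ (p, C.FT p) = 0 := fun p hp => by
    obtain ⟨e1, e2⟩ := C.ft_spec ha (ξ := p.1.1) (η := p.1.2) hp p.2
    simp only [Θ, FT, e1, e2]
    simp
  have c1 : ContDiffAt ℝ ∞ Θ (((ξ, η), s), x) := by
    have f0 := contDiffAt_fst (𝕜 := ℝ) (n := ∞) (p := (((ξ, η), s), x))
    have w1 := cW C h f0.fst.fst contDiffAt_snd hp.1
    exact (w1.add (cW C h f0.fst.snd contDiffAt_snd hp.2.1)).add
      (((cb C h f0.fst.fst contDiffAt_snd hp.1).add f0.snd).smul w1)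
  have c2 : ContDiff ℝ ∞ C.Dp := C.pr_smooth.fderiv_right (m := ∞) le_rfl
  have c3 : ContDiffAt ℝ ∞ (fun z => (iB N (Θ z)).comp (C.Dp z.2)) (((ξ, η), s), x) :=
    ((iB N).contDiff.contDiffAt.comp _ c1).clm_comp (c2.contDiffAt.comp _ contDiffAt_snd)
  refine ift (Φ := fun z => (iB N (Θ z)).comp (C.Dp z.2)) c3 (isInv fun e he => ?_)
    ((C.continuousOn_ft ha).continuousAt ((isOpen_GO.prod isOpen_univ).mem_nhds ⟨hp, trivial⟩)) ?_
  · have i0 := hasFDerivAt_id (𝕜 := ℝ) x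
    have w1 := fW C h (n1 hp) (hasFDerivAt_const ξ x) i0 rfl rfl
    have d1 := (w1.add (fW C h (n2 hp) (hasFDerivAt_const η x) i0 rfl rfl)).add
      (((fb C h (n1 hp) (hasFDerivAt_const ξ x) i0 rfl rfl).add_const s).smul w1)
    have d2 := ((iB N).hasFDerivAt.comp x d1).clm_comp (c2.differentiable (by simp) x).hasFDerivAt
    have d3 := (c3.differentiableAt (by simp)).hasFDerivAt.comp x (hasFDerivAt_prodMk_right _ x)
    have d4 := he.symm.trans (congrArg (fun T : Euc n →L[ℝ] Euc n →L[ℝ] ℝ => T e e) (d3.unique d2))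
    refine C.fderiv_pr_inj x ((pos h (C.qq_mem h (n1 hp) x) (C.fderiv_pr_mem x e) ?_).trans
      (map_zero _).symm)
    simp [C.qq_rev h hx, dP_rev, AA_rev, hx, hs, iB_apply] at d4
    simp only [qq, Dp] at d4 ⊢
    linarith
  · filter_upwards [ev3 hp s] with p hp'
    rw [h0 p hp', h0 _ hp]
    simp

lemma contDiffAt_cc (hp : (ξ, η) ∈ GO n) :
    ContDiffAt ℝ ∞ (fun p : Euc n × Euc n => C.cc p.1 p.2) (ξ, η) := by
  have c : ContDiffAt ℝ ∞ (fun p : Euc n × Euc n => C.ft p.1 p.2 0) (ξ, η) :=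
    (C.contDiffAt_FT h hp 0).comp (ξ, η) (f := fun p => (p, 0)) (by fun_prop)
  exact ((cb C h contDiffAt_fst c hp.1).add (cb C h contDiffAt_snd c hp.2.1)).neg

lemma hasFDerivAt_cc (hp : (ξ, η) ∈ GO n) :
    HasFDerivAt (fun p : Euc n × Euc n => C.cc p.1 p.2)
      (C.c1 ξ η ∘L ContinuousLinearMap.fst ℝ _ _ + C.c2 ξ η ∘L ContinuousLinearMap.snd ℝ _ _)
      (ξ, η) := split (C.contDiffAt_cc h hp)

lemma contDiffAt_c1 (hp : (ξ, η) ∈ GO n) :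
    ContDiffAt ℝ ∞ (fun p : Euc n × Euc n => C.c1 p.1 p.2) (ξ, η) := cd1 (C.contDiffAt_cc h hp)

lemma contDiffAt_c2 (hp : (ξ, η) ∈ GO n) :
    ContDiffAt ℝ ∞ (fun p : Euc n × Euc n => C.c2 p.1 p.2) (ξ, η) := cd2 (C.contDiffAt_cc h hp)

lemma contDiffAt_MM (hp : (ξ, η) ∈ GO n) :
    ContDiffAt ℝ ∞ (fun p : Euc n × Euc n => C.MMb p.1 p.2) (ξ, η) := cd1 (C.contDiffAt_c2 h hp)

lemma contDiffAt_Mdet (hp : (ξ, η) ∈ GO n) :
    ContDiffAt ℝ ∞ (fun p : Euc n × Euc n => C.Mdet p.1 p.2) (ξ, η) := by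
  simp only [Mdet, Matrix.det_apply', Matrix.of_apply]
  refine ContDiffAt.sum fun σ _ => contDiffAt_const.mul (contDiffAt_prod fun i _ => ?_)
  exact (((C.contDiffAt_MM h hp).clm_apply contDiffAt_const).clm_apply contDiffAt_const).sub
    (by fun_prop)

lemma c2_eq_c1 (hp : (ξ, η) ∈ GO n) : C.c2 ξ η = C.c1 η ξ :=
  EventuallyEq.fderiv_eq ((ev2 hp).mono fun _ h' => (C.cc_symm h.hyp.a_pos h').symm)

/-- the foot point as a function of `ξ` -/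
lemma Ft.dF (hp : (ξ, η) ∈ GO n) (s : ℝ) : HasFDerivAt (fun ξ => C.ft ξ η s)
    (fderiv ℝ C.FT ((ξ, η), s) ∘L ContinuousLinearMap.inl ℝ _ _ ∘L ContinuousLinearMap.inl ℝ _ _)
    ξ :=
  ((C.contDiffAt_FT h hp s).differentiableAt (by simp)).hasFDerivAt.comp ξ
    (f := fun ξ => ((ξ, η), s)) (by
      exact (hasFDerivAt_prodMk_left (𝕜 := ℝ) (ξ, η) s).comp ξ (f := fun ξ => (ξ, η))
        (hasFDerivAt_prodMk_left (𝕜 := ℝ) ξ η))

lemma c1_eq (hp : (ξ, η) ∈ GO n) (hx : C.W η x = -C.W ξ x) : C.c1 ξ η = -C.b1 ξ x := by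
  have ha := h.hyp.a_pos
  have ex := C.eq_ft ha hp hx (neg_neg _).symm
  have d0 := dF C h hp (-C.b ξ x)
  have d1 := ((fb C h (n1 hp) (hasFDerivAt_id ξ) d0 rfl ex.symm).add
    (fb C h (n2 hp) (hasFDerivAt_const η ξ) d0 rfl ex.symm)).neg
  have d2 := d1.congr_of_eventuallyEq (f₁ := fun ξ => C.cc ξ η)
    ((ev1 hp).mono fun _ h' => C.cc_eq ha h' (C.ft_spec ha h' _).1)
  rw [c1, d2.fderiv, hx]
  ext1 e
  simp

lemma c2_eq (hp : (ξ, η) ∈ GO n) (hx : C.W η x = -C.W ξ x) : C.c2 ξ η = -C.b1 η x := by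
  rw [C.c2_eq_c1 h hp, C.c1_eq h (GO_symm hp) (by rw [hx, neg_neg])]

lemma c1_self (hp : (ξ, η) ∈ GO n) : C.c1 ξ η ξ = 0 := by
  rw [C.c1_eq h hp (C.ft_spec h.hyp.a_pos hp 0).1, neg_apply, C.b1_self h (n1 hp), neg_zero]

lemma c2_self (hp : (ξ, η) ∈ GO n) : C.c2 ξ η η = 0 := by
  rw [C.c2_eq_c1 h hp, C.c1_self h (GO_symm hp)]

/-- differential of the foot point -/
lemma fderiv_FT (hp : (ξ, η) ∈ GO n) (hx : x = C.ft ξ η s) (ζ ζ' : Euc n) (σ : ℝ) :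
    C.Dp x (fderiv ℝ C.FT ((ξ, η), s) ((ζ, ζ'), σ)) =
      H.Ei G (C.qq ξ x) (C.KW ξ x ζ + C.KW η x ζ') + (σ - C.c1 ξ η ζ) • C.W ξ x := by
  have ha := h.hyp.a_pos
  have hw : C.W η x = -C.W ξ x := hx ▸ (C.ft_spec ha hp s).1
  have hq := C.qq_mem h (n1 hp) x
  have d0 := ((C.contDiffAt_FT h hp s).differentiableAt (by simp)).hasFDerivAt
  have f1 : HasFDerivAt (fun p : (Euc n × Euc n) × ℝ => p.1.1) _ ((ξ, η), s) :=
    (hasFDerivAt_fst (𝕜 := ℝ) (p := ((ξ, η), s))).fst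
  have f2 : HasFDerivAt (fun p : (Euc n × Euc n) × ℝ => p.1.2) _ ((ξ, η), s) :=
    (hasFDerivAt_fst (𝕜 := ℝ) (p := ((ξ, η), s))).snd
  have d1 := ((fW C h (n2 hp) f2 d0 rfl hx.symm).congr_of_eventuallyEq
    ((ev3 hp s).mono fun p h' => (C.ft_spec ha (ξ := p.1.1) (η := p.1.2) h' p.2).1.symm)).unique
    (fW C h (n1 hp) f1 d0 rfl hx.symm).neg
  have d2 := ((fb C h (n1 hp) f1 d0 rfl hx.symm).congr_of_eventuallyEq
    ((ev3 hp s).mono fun p h' => (C.ft_spec ha (ξ := p.1.1) (η := p.1.2) h' p.2).2.symm)).unique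
    hasFDerivAt_snd.neg
  have e1 := congrArg (fun T => T ((ζ, ζ'), σ)) d1
  have e2 := congrArg (fun T => T ((ζ, ζ'), σ)) d2
  have hk := tan_eq hq (C.fderiv_pr_mem x (fderiv ℝ C.FT ((ξ, η), s) ((ζ, ζ'), σ)))
  simp [C.qq_rev h hw, dP_rev, AA_rev] at e1 e2
  change C.Dp x _ = Pv G _ (C.Dp x _) + ⟪C.W ξ x, C.Dp x _⟫ • C.W ξ x at hk
  generalize C.Dp x (fderiv ℝ C.FT ((ξ, η), s) ((ζ, ζ'), σ)) = k at *
  have e3 : C.KW ξ x ζ + C.KW η x ζ' = U G (C.qq ξ x) k + AA G (C.qq ξ x) k := by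
    linear_combination (norm := module) e1
  rw [e3, H.Ei_D (H.isU h.hyp) ha hq, C.c1_eq h hp hw, neg_apply,
    show σ - -C.b1 ξ x ζ = ⟪C.W ξ x, k⟫ by linarith]
  exact hk

/-- differential of the velocity at the foot point -/
lemma fderiv_WFT (hp : (ξ, η) ∈ GO n) (hx : x = C.ft ξ η s) (ζ ζ' : Euc n) (σ : ℝ) :
    G.P (C.pr x) (fderiv ℝ (fun p => C.W p.1.1 (C.FT p)) ((ξ, η), s) ((ζ, ζ'), σ)) =
      C.KW ξ x ζ - AA G (C.qq ξ x) (H.Ei G (C.qq ξ x) (C.KW ξ x ζ + C.KW η x ζ')) := by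
  have hq := C.qq_mem h (n1 hp) x
  have hU : IsU G (U G) := H.isU h.hyp
  have d0 := ((C.contDiffAt_FT h hp s).differentiableAt (by simp)).hasFDerivAt
  have f1 : HasFDerivAt (fun p : (Euc n × Euc n) × ℝ => p.1.1) _ ((ξ, η), s) :=
    (hasFDerivAt_fst (𝕜 := ℝ) (p := ((ξ, η), s))).fst
  have e1 : G.P (C.pr x) (dP G (C.qq ξ x) (C.Dp x (fderiv ℝ C.FT ((ξ, η), s) ((ζ, ζ'), σ)))) = 0 :=
    dP_tangent_normal hq.1 (C.fderiv_pr_mem x _)
  have e2 : ∀ w ∈ Vp G (C.qq ξ x), G.P (C.pr x) w = w := fun w hw =>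
    (P_eq_self G (C.pr_mem x)).1 (mem_Vp.1 hw).1
  have e3 : AA G (C.qq ξ x) (C.W ξ x) = 0 := H.Um_vel hU hq
  rw [(fW C h (n1 hp) f1 d0 rfl hx.symm).fderiv]
  simp only [add_apply, sub_apply, ContinuousLinearMap.comp_apply, map_add (G.P _), map_sub (G.P _),
    e1, e2 _ (C.KW_mem h (n1 hp) x _), e2 _ (UDn.rev_mem' hU hq _)]
  rw [C.fderiv_FT h hp hx, map_add (AA G _), map_smul, e3]
  simp [sub_eq_add_neg]

lemma hasFDerivAt_c2 (hp : (ξ, η) ∈ GO n) (ζ' : Euc n) :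
    HasFDerivAt (fun ξ => C.c2 ξ η ζ') ((C.MMb ξ η).flip ζ') ξ := by
  have := (d1 (C.contDiffAt_c2 h hp)).clm_apply (hasFDerivAt_const ζ' ξ)
  rwa [ContinuousLinearMap.comp_zero, zero_add] at this

lemma MMb_eq (hp : (ξ, η) ∈ GO n) (hx : C.W η x = -C.W ξ x) (ζ ζ' : Euc n) :
    C.MMb ξ η ζ ζ' = ⟪C.KW ξ x ζ, H.Ei G (C.qq ξ x) (C.KW η x ζ')⟫ := by
  have ha := h.hyp.a_pos
  have ex := C.eq_ft ha hp hx (neg_neg _).symm
  have d0 := C.hasFDerivAt_b1 h (n2 hp) x ζ'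
  rw [ex] at d0
  have d1 := ((d0.comp ξ (dF C h hp (-C.b ξ x))).neg.congr_of_eventuallyEq
    (f₁ := fun ξ => C.c2 ξ η ζ') ((ev1 hp).mono fun _ h' =>
      DFunLike.congr_fun (C.c2_eq h h' (C.ft_spec ha h' (-C.b ξ x)).1) ζ')).unique (C.hasFDerivAt_c2 h hp ζ')
  have e1 := congrArg (fun T => T ζ) d1
  have e2 := (mem_Vp.1 (C.KW_mem h (n2 hp) x ζ')).2
  rw [← ex] at e1
  simp [C.fderiv_FT h hp ex, inner_add_right, inner_smul_right] at e1
  simp [qq, hx] at e2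
  rw [← e1, e2, mul_zero, neg_zero, add_zero, ← inner_Ei h (C.qq_mem h (n1 hp) x), real_inner_comm]

lemma MM_symm (hp : (ξ, η) ∈ GO n) (ζ ζ' : Euc n) : C.MMb η ξ ζ' ζ = C.MMb ξ η ζ ζ' := by
  have hx := (C.ft_spec h.hyp.a_pos hp 0).1
  rw [C.MMb_eq h hp hx, C.MMb_eq h (GO_symm hp) (by rw [hx, neg_neg]), C.qq_rev h hx, Ei_rev h,
    ← inner_Ei h (C.qq_mem h (n1 hp) _), real_inner_comm]

lemma hasFDerivAt_c1 (hp : (ξ, η) ∈ GO n) (ζ : Euc n) :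
    HasFDerivAt (fun η => C.c1 ξ η ζ) (C.MMb ξ η ζ) η := by
  have e : C.MMb ξ η ζ = (C.MMb η ξ).flip ζ :=
    ContinuousLinearMap.ext fun ζ' => (C.MM_symm h hp ζ ζ').symm
  rw [e]
  exact (C.hasFDerivAt_c2 h (GO_symm hp) ζ).congr_of_eventuallyEq
    ((ev2 hp).mono fun _ h' => DFunLike.congr_fun (C.c2_eq_c1 h (GO_symm h')).symm ζ)

lemma MM_self (hp : (ξ, η) ∈ GO n) : C.MMb ξ η ξ = 0 ∧ ∀ ζ, C.MMb ξ η ζ η = 0 := by
  have hx := (C.ft_spec h.hyp.a_pos hp 0).1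
  refine ⟨ContinuousLinearMap.ext fun ζ => ?_, fun ζ => ?_⟩
  · rw [C.MMb_eq h hp hx, C.KW_self h (n1 hp), inner_zero_left, zero_apply]
  · rw [C.MMb_eq h hp hx, C.KW_self h (n2 hp), map_zero, inner_zero_right]




end Crest.Agent.N221.Cov
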